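import Mathlib

/-!
P052, row SIMPLEX of helper473 (w3 row 178): barycentric coordinates with respect to a
regular simplex with edge one in Euclidean `d`-space, and the distance formula.
-/

namespace Vale.Agent.P052.R3.H594

open Finset

/-- The norm of a combination with total weight zero of points at mutual distance one. -/
theorem norm_sq {ι : Type*} [Fintype ι] {E : Type*} [NormedAddCommGroup E]
    [InnerProductSpace ℝ E] (v : ι → E) (hv : ∀ i j, i ≠ j → dist (v i) (v j) = 1)
    (w : ι → ℝ) (hw : ∑ i, w i = 0) :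
    ‖∑ i, w i • v i‖ ^ 2 = (∑ i, w i ^ 2) / 2 := by
  classical
  have h := inner_sum_smul_sum_smul_of_sum_eq_zero (s₁ := (Finset.univ : Finset ι)) (w₁ := w) v hw
    (s₂ := (Finset.univ : Finset ι)) (w₂ := w) v hw
  rw [real_inner_self_eq_norm_sq] at h
  rw [h]
  have key : ∑ i, ∑ j, w i * w j * (‖v i - v j‖ * ‖v i - v j‖) = -∑ i, w i ^ 2 := by
    have e1 : ∀ i j, w i * w j * (‖v i - v j‖ * ‖v i - v j‖)
        = w i * w j - (if i = j then w i * w j else 0) := by
      intro i j
      by_cases hij : i = j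
      · subst hij
        simp
      · have h1 := hv i j hij
        rw [dist_eq_norm] at h1
        simp [h1, hij]
    calc ∑ i, ∑ j, w i * w j * (‖v i - v j‖ * ‖v i - v j‖)
        = ∑ i, ∑ j, (w i * w j - (if i = j then w i * w j else 0)) := by
          refine Finset.sum_congr rfl fun i _ => Finset.sum_congr rfl fun j _ => e1 i j
      _ = ∑ i, (w i * ∑ j, w j - w i * w i) := by
          refine Finset.sum_congr rfl fun i _ => ?_
          rw [Finset.sum_sub_distrib, Finset.mul_sum]
          simp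
      _ = -∑ i, w i ^ 2 := by
          rw [hw]
          simp [sq]
  rw [key]
  ring

theorem affineIndep {ι : Type*} [Fintype ι] {E : Type*} [NormedAddCommGroup E]
    [InnerProductSpace ℝ E] (v : ι → E) (hv : ∀ i j, i ≠ j → dist (v i) (v j) = 1) :
    AffineIndependent ℝ v := by
  classical
  rw [affineIndependent_iff_of_fintype]
  intro w hw h0
  rw [Finset.weightedVSub_eq_weightedVSubOfPoint_of_sum_eq_zero _ _ _ hw (0 : E)] at h0
  simp only [Finset.weightedVSubOfPoint_apply, vsub_eq_sub, sub_zero] at h0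
  have h := norm_sq v hv w hw
  rw [h0] at h
  have h2 : ∑ i, w i ^ 2 = 0 := by
    have : (‖(0 : E)‖ : ℝ) ^ 2 = 0 := by simp
    rw [this] at h
    linarith
  intro i
  have h3 := (Finset.sum_eq_zero_iff_of_nonneg (fun i _ => sq_nonneg (w i))).1 h2 i
    (Finset.mem_univ i)
  exact pow_eq_zero_iff (two_ne_zero) |>.1 h3

theorem bary {d : ℕ} (v : Fin (d + 1) → EuclideanSpace ℝ (Fin d))
    (hv : ∀ i j, i ≠ j → dist (v i) (v j) = 1) (x : EuclideanSpace ℝ (Fin d)) :
    ∃ t : Fin (d + 1) → ℝ, ∑ i, t i = 1 ∧ x = ∑ i, t i • v i := by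
  have hi := affineIndep v hv
  have htop : affineSpan ℝ (Set.range v) = ⊤ := by
    rw [hi.affineSpan_eq_top_iff_card_eq_finrank_add_one]
    simp
  have hx : x ∈ affineSpan ℝ (Set.range v) := by
    rw [htop]
    exact AffineSubspace.mem_top _ _ _
  obtain ⟨t, ht, hxt⟩ := eq_affineCombination_of_mem_affineSpan_of_fintype hx
  refine ⟨t, ht, ?_⟩
  rw [hxt, Finset.affineCombination_eq_linear_combination _ _ _ ht]

theorem dist_sq {d : ℕ} (v : Fin (d + 1) → EuclideanSpace ℝ (Fin d))
    (hv : ∀ i j, i ≠ j → dist (v i) (v j) = 1) {t s : Fin (d + 1) → ℝ}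
    (ht : ∑ i, t i = 1) (hs : ∑ i, s i = 1) :
    dist (∑ i, t i • v i) (∑ i, s i • v i) ^ 2 = (∑ i, (t i - s i) ^ 2) / 2 := by
  have h := norm_sq v hv (fun i => t i - s i) (by rw [Finset.sum_sub_distrib, ht, hs, sub_self])
  rw [← h, dist_eq_norm, ← Finset.sum_sub_distrib]
  simp only [sub_smul]

end Vale.Agent.P052.R3.H594
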